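import Vale.Agent.Lib.P348.Trial

/-!
For every ring length `L ≥ 2` (in particular every even `L ≥ 4`) the periodic spin-one
Heisenberg Hamiltonian `heis L` has a least eigenvalue `E0` and a least eigenvalue `E1`
strictly above `E0`, and `E1 - E0 ≤ 4`: the gap above the ground energy is at most `4`,
uniformly in the length.
-/

namespace Vale.Agent.Results.P348.UniformGapUpperBound

open Matrix Vale.Agent.Lib.P348

/-- Check of the conventions: `Sx, Sy, Sz` satisfy the spin commutation relations and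
`Sx^2 + Sy^2 + Sz^2 = 2`. -/
theorem spin_relations :
    Sx * Sy - Sy * Sx = Complex.I • Sz ∧ Sy * Sz - Sz * Sy = Complex.I • Sx ∧
      Sz * Sx - Sx * Sz = Complex.I • Sy ∧
      Sx * Sx + Sy * Sy + Sz * Sz = (2 : ℂ) • (1 : Matrix (Fin 3) (Fin 3) ℂ) := by
  have hc := half_sq
  have hI := Complex.I_mul_I
  have h1 : (mu + md) * (mu - md) - (mu - md) * (mu + md) = (-2 : ℂ) • Sz := by
    ext i j
    fin_cases i <;> fin_cases j <;>
      simp [mu, md, Sz] <;> norm_num
  have h2 : (mu - md) * Sz - Sz * (mu - md) = (-1 : ℂ) • (mu + md) := by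
    ext i j
    fin_cases i <;> fin_cases j <;>
      simp [mu, md, Sz]
  have h3 : Sz * (mu + md) - (mu + md) * Sz = mu - md := by
    ext i j
    fin_cases i <;> fin_cases j <;>
      simp [mu, md, Sz]
  have h4 : (mu + md) * (mu + md) - (mu - md) * (mu - md) + (2 : ℂ) • (Sz * Sz)
      = (4 : ℂ) • (1 : Matrix (Fin 3) (Fin 3) ℂ) := by
    ext i j
    fin_cases i <;> fin_cases j <;>
      simp [mu, md, Sz] <;> norm_num
  refine ⟨?_, ?_, ?_, ?_⟩
  · rw [Sx_eq, Sy_eq, smul_mul_smul_comm, smul_mul_smul_comm,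
      mul_comm (((1 / Real.sqrt 2 : ℝ) : ℂ) * -Complex.I) (((1 / Real.sqrt 2 : ℝ) : ℂ)),
      ← smul_sub, h1, smul_smul]
    congr 1
    linear_combination (2 * Complex.I) * hc
  · rw [Sx_eq, Sy_eq, smul_mul_assoc, mul_smul_comm, ← smul_sub, h2, smul_smul, smul_smul]
    congr 1
    ring
  · rw [Sx_eq, Sy_eq, smul_mul_assoc, mul_smul_comm, ← smul_sub, h3, smul_smul]
    congr 1
    linear_combination (((1 / Real.sqrt 2 : ℝ) : ℂ)) * hI
  · rw [Sx_eq, Sy_eq, smul_mul_smul_comm, smul_mul_smul_comm]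
    have e : (((1 / Real.sqrt 2 : ℝ) : ℂ) * -Complex.I) * (((1 / Real.sqrt 2 : ℝ) : ℂ) * -Complex.I)
        = -(1 / 2) := by
      linear_combination (Complex.I * Complex.I) * hc + (1 / 2 : ℂ) * hI
    rw [e, hc]
    have h5 : (1 / 2 : ℂ) • ((mu + md) * (mu + md)) + (-(1 / 2) : ℂ) • ((mu - md) * (mu - md))
        + Sz * Sz = (1 / 2 : ℂ) • ((mu + md) * (mu + md) - (mu - md) * (mu - md)
          + (2 : ℂ) • (Sz * Sz)) := by
      module
    rw [h5, h4, smul_smul]
    congr 1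
    norm_num

theorem result (L : ℕ) [NeZero L] (hL : 2 ≤ L) :
    ∃ E0 E1 : ℝ, IsLeast (eigs (heis L)) E0 ∧
      IsLeast {μ | μ ∈ eigs (heis L) ∧ E0 < μ} E1 ∧ E1 - E0 ≤ 4 :=
  heis_gap L hL

end Vale.Agent.Results.P348.UniformGapUpperBound
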